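import Vale.Agent.P216.Ch2.Ns
import Vale.Agent.P216.Ch2.H962.Rot

/-!
# Slants by families parametrised by the cube (P216, block B43)

`slT m F f₀ C = KV m (F^* C - (f₀ ∘ fst)^* C)` for a family `F : E × cube → E'` which is `f₀`
outside the cube of radius `1/8` (`IsFm`). Chain property, homotopy invariance, commutation of two
slants (`slT_comm`), slant by the diagonal of two families (`slT_diag`).
-/

open Set

namespace Vale.Agent.P216.Ch2.H962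

open Vale.Agent.P216.DV965 Vale.Agent.P216.AS Vale.Agent.P216.Ch2.AS

variable {k : Type} [Field k] {E E' E'' E₁ : Type} {m : ℕ}

/-- The slant. -/
noncomputable def slT (m : ℕ) (F : E × (Fin m → ℝ) → E') (f₀ : E → E') : TC k E' →ₗ[k] TC k E :=
  KV m ∘ₗ (pT F - pT fun p => f₀ p.1)

theorem slT_apply (F : E × (Fin m → ℝ) → E') (f₀ : E → E') (C : TC k E') :
    slT m F f₀ C = KV m (pT F C - pT (fun p => f₀ p.1) C) := rfl

theorem slT_deg0 (hm : 1 ≤ m) (F : E × (Fin m → ℝ) → E') (f₀ : E → E') (C : TC k E') :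
    slT m F f₀ C 0 = 0 := KV_deg0 m hm _

theorem slT_pT (F : E × (Fin m → ℝ) → E') (f₀ : E → E') (g : E' → E'') (C : TC k E'') :
    slT m F f₀ (pT g C) = slT m (g ∘ F) (g ∘ f₀) C := rfl

theorem pT_slT (F : E' × (Fin m → ℝ) → E'') (f₀ : E' → E'') (g : E → E') (C : TC k E'') :
    pT g (slT m F f₀ C) = slT m (F ∘ Prod.map g id) (f₀ ∘ g) C := by
  rw [slT_apply, ← KV_pT]
  rfl

/-- Outside the small cube. -/
def Out (v : Fin m → ℝ) : Prop := ∃ i, 1 / 8 ≤ |v i - 1 / 2|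

theorem out_of_bJ {v : Fin m → ℝ} (h : v ∈ bJ m) : Out v := by
  obtain ⟨-, i, hi⟩ := h
  refine ⟨i, ?_⟩
  rcases hi with hi | hi <;> rw [hi] <;> norm_num

theorem zero_out (hm : 1 ≤ m) : Out (fun _ : Fin m => (0 : ℝ)) := ⟨⟨0, hm⟩, by norm_num⟩

theorem zero_mem_Bg : (fun _ : Fin m => (0 : ℝ)) ∈ Bg m := fun _ => ⟨by norm_num, by norm_num⟩

section Metric

variable [PseudoMetricSpace E] [PseudoMetricSpace E'] [PseudoMetricSpace E'']
  [PseudoMetricSpace E₁]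

/-- A family over the cube. -/
structure IsFm (A : Set E) (Y : Set E') (F : E × (Fin m → ℝ) → E') (f₀ : E → E') : Prop where
  um : UM (A ×ˢ Bg m) Y F
  out : ∀ x ∈ A, ∀ v ∈ Bg m, Out v → F (x, v) = f₀ x

variable {A : Set E} {Y : Set E'} {F : E × (Fin m → ℝ) → E'} {f₀ : E → E'}

theorem uM_const {B : Set E'} {b : E'} (hb : b ∈ B) : UM A B fun _ => b where
  maps := fun _ _ => hb
  uc := fun ε hε => ⟨1, one_pos, fun _ _ _ _ _ => by rwa [dist_self]⟩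

theorem IsFm.um0 (h : IsFm A Y F f₀) (hm : 1 ≤ m) : UM A Y f₀ := by
  have h1 : UM A (A ×ˢ Bg m) fun x => (x, fun _ : Fin m => (0 : ℝ)) :=
    (UM.id' le_rfl).pair (uM_const zero_mem_Bg)
  have h2 := h.um.comp h1
  have e : ∀ x ∈ A, F (x, fun _ => 0) = f₀ x := fun x hx => h.out x hx _ zero_mem_Bg (zero_out hm)
  exact ⟨fun x hx => e x hx ▸ h2.maps hx, fun ε hε => by
    obtain ⟨δ, hδ, h3⟩ := h2.uc ε hε
    exact ⟨δ, hδ, fun x hx y hy hxy => by rw [← e x hx, ← e y hy]; exact h3 x hx y hy hxy⟩⟩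

theorem IsFm.mono (h : IsFm A Y F f₀) {A' : Set E} (hA : A' ⊆ A) : IsFm A' Y F f₀ :=
  ⟨h.um.mono (prod_mono hA le_rfl), fun x hx => h.out x (hA hx)⟩

theorem IsFm.mono_right (h : IsFm A Y F f₀) {Y' : Set E'} (hY : Y ⊆ Y') : IsFm A Y' F f₀ :=
  ⟨h.um.mono_right hY, h.out⟩

theorem IsFm.comp {g : E' → E''} {Z : Set E''} (hg : UM Y Z g) (h : IsFm A Y F f₀) :
    IsFm A Z (g ∘ F) (g ∘ f₀) :=
  ⟨hg.comp h.um, fun x hx v hv ho => by
    change g _ = g _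
    rw [h.out x hx v hv ho]⟩

theorem IsFm.pre {A' : Set E₁} {g : E₁ → E} (hg : UM A' A g) (h : IsFm A Y F f₀) :
    IsFm A' Y (F ∘ Prod.map g id) (f₀ ∘ g) := by
  refine ⟨h.um.comp ?_, fun x hx v hv ho => h.out (g x) (hg.maps hx) v hv ho⟩
  exact (hg.comp (UM.fst' (A := A') fun p hp => hp.1)).pair
    (UM.snd' (A := Bg m) fun p hp => hp.2)

theorem IsFm.vT_bJ (h : IsFm A Y F f₀) (C : TC k E') :
    VT (A ×ˢ bJ m) (pT F C - pT (fun p => f₀ p.1) C) := by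
  intro n
  refine ⟨1, one_pos, fun x hx => ?_⟩
  change C n (F ∘ x) - C n ((fun p => f₀ p.1) ∘ x) = 0
  rw [sub_eq_zero]
  congr 1
  funext i
  have := hx.1 i
  exact h.out _ this.1 _ (Jc_sub_Bg m (bJ_sub m this.2)) (out_of_bJ this.2)

theorem IsFm.vT_sub (h : IsFm A Y F f₀) (hm : 1 ≤ m) {C : TC k E'} (hC : VT Y C) :
    VT (A ×ˢ Jc m) (pT F C - pT (fun p => f₀ p.1) C) := by
  refine (vT_pT (h.um.mono (prod_mono le_rfl (Jc_sub_Bg m))) hC).sub (vT_pT ?_ hC)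
  exact (h.um0 hm).comp (UM.fst' (A := A) fun p hp => hp.1)

theorem IsFm.slT_van (h : IsFm A Y F f₀) (hm : 1 ≤ m) {C : TC k E'} (hC : VT Y C) :
    VT A (slT m F f₀ C) := vT_KV m (h.vT_sub hm hC)

/-- The chain property. -/
theorem IsFm.dT_slT (h2 : Ok k) (h : IsFm A Y F f₀) (C : TC k E') :
    VT A (dT (slT m F f₀ C) - (-1 : k) ^ m • slT m F f₀ (dT C)) := by
  have := dT_KV h2 m (h.vT_bJ C)
  rwa [map_sub (dT (k := k)), dT_pT, dT_pT] at this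

/-- The slant of a cocycle is a cocycle. -/
theorem IsFm.cocyc (h2 : Ok k) (h : IsFm A Y F f₀) (hm : 1 ≤ m) {C : TC k E'}
    (hC : VT Y (dT C)) : VT A (dT (slT m F f₀ C)) := by
  have := (h.dT_slT h2 C).add ((h.slT_van hm hC).smul ((-1 : k) ^ m))
  rwa [sub_add_cancel] at this

theorem IsFm.coh (h2 : Ok k) (h : IsFm A Y F f₀) (hm : 1 ≤ m) {C C' : TC k E'}
    (hC : Coh Y C C') : Coh A (slT m F f₀ C) (slT m F f₀ C') := by
  obtain ⟨g, -, hg⟩ := hC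
  refine ⟨(-1 : k) ^ m • slT m F f₀ g, ?_, ?_⟩
  · rw [Pi.smul_apply, slT_deg0 hm, smul_zero]
  · have h1 := (h.slT_van hm hg).add ((h.dT_slT h2 g).smul (-(-1 : k) ^ m))
    convert h1 using 1
    rw [map_sub, map_sub, smul_sub, smul_smul, neg_mul, ← mul_pow, neg_one_mul, neg_neg, one_pow,
      map_smul, neg_smul, neg_smul, one_smul]
    abel

/-- **Homotopy invariance.** -/
theorem slT_htpy (h2 : Ok k) (hm : 1 ≤ m) {D : (E × (Fin m → ℝ)) × ℝ → E'}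
    {D₀ : E × ℝ → E'} (hD : UM ((A ×ˢ Jc m) ×ˢ Icc (0 : ℝ) 1) Y D)
    (h0 : ∀ x ∈ A, ∀ v ∈ bJ m, ∀ s ∈ Icc (0 : ℝ) 1, D ((x, v), s) = D₀ (x, s))
    {C : TC k E'} (hC : VT Y (dT C)) :
    Coh A (slT m (D ∘ jj 1) (D₀ ∘ jj 1) C) (slT m (D ∘ jj 0) (D₀ ∘ jj 0) C) := by
  set D' : (E × (Fin m → ℝ)) × ℝ → E' := fun p => D₀ (p.1.1, p.2) with hD'
  have hz : (fun _ : Fin m => (0 : ℝ)) ∈ bJ m :=
    ⟨fun _ => ⟨le_rfl, zero_le_one⟩, ⟨0, hm⟩, Or.inl rfl⟩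
  have hD₀ : UM ((A ×ˢ Jc m) ×ˢ Icc (0 : ℝ) 1) Y D' := by
    have h1 : UM ((A ×ˢ Jc m) ×ˢ Icc (0 : ℝ) 1) ((A ×ˢ Jc m) ×ˢ Icc (0 : ℝ) 1)
        fun p : (E × (Fin m → ℝ)) × ℝ => ((p.1.1, fun _ : Fin m => (0 : ℝ)), p.2) := by
      refine UM.of_dist_le (fun p hp => ⟨⟨hp.1.1, bJ_sub m hz⟩, hp.2⟩) fun p _ q _ => ?_
      simp only [Prod.dist_eq]
      refine max_le_max (max_le (le_max_left _ _) ?_) le_rfl
      rw [dist_self]
      exact le_max_of_le_left dist_nonneg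
    have h3 := hD.comp h1
    refine ⟨fun p hp => ?_, fun ε hε => ?_⟩
    · have := h3.maps hp
      simp only [Function.comp] at this
      rwa [h0 _ hp.1.1 _ hz _ hp.2] at this
    · obtain ⟨δ, hδ, h4⟩ := h3.uc ε hε
      refine ⟨δ, hδ, fun p hp q hq hpq => ?_⟩
      have := h4 p hp q hq hpq
      simp only [Function.comp] at this
      rwa [h0 _ hp.1.1 _ hz _ hp.2, h0 _ hq.1.1 _ hz _ hq.2] at this
  refine coh_KV h2 hm ⟨KT (pT D C - pT D' C), vT_KT ?_, ?_⟩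
  · intro n
    refine ⟨1, one_pos, fun x hx => ?_⟩
    change C n (D ∘ x) - C n (D' ∘ x) = 0
    rw [sub_eq_zero]
    congr 1
    funext i
    have := hx.1 i
    exact h0 _ this.1.1 _ this.1.2 _ this.2
  · have e := dT_KT h2 (pT D C - pT D' C)
    have e1 : pT (D ∘ jj 1) C - pT (fun p => (D₀ ∘ jj 1) p.1) C -
        (pT (D ∘ jj 0) C - pT (fun p => (D₀ ∘ jj 0) p.1) C) =
        pT (jj 1) (pT D C - pT D' C) - pT (jj 0) (pT D C - pT D' C) := by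
      rw [map_sub (pT (jj 1)), map_sub (pT (jj 0)), pT_pT, pT_pT, pT_pT, pT_pT]
      rfl
    change VT (A ×ˢ Jc m) (pT (D ∘ jj 1) C - pT (fun p => (D₀ ∘ jj 1) p.1) C -
        (pT (D ∘ jj 0) C - pT (fun p => (D₀ ∘ jj 0) p.1) C) - dT (KT (pT D C - pT D' C)))
    rw [e1, ← e, add_sub_cancel_left]
    refine vT_KT ?_
    rw [map_sub, dT_pT, dT_pT]
    exact (vT_pT hD hC).sub (vT_pT hD₀ hC)

omit [PseudoMetricSpace E'] in
theorem slT_congr {F' : E × (Fin m → ℝ) → E'} {f₀' : E → E'}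
    (hF : ∀ x ∈ A, ∀ v ∈ Jc m, F (x, v) = F' (x, v)) (hf : ∀ x ∈ A, f₀ x = f₀' x) (C : TC k E') :
    VT A (slT m F f₀ C - slT m F' f₀' C) := by
  rw [slT_apply, slT_apply, ← map_sub]
  refine vT_KV m fun n => ⟨1, one_pos, fun x hx => ?_⟩
  change C n (F ∘ x) - C n ((fun p => f₀ p.1) ∘ x) - (C n (F' ∘ x) - C n ((fun p => f₀' p.1) ∘ x)) = 0
  have e1 : F ∘ x = F' ∘ x := funext fun i => hF _ (hx.1 i).1 _ (hx.1 i).2
  have e2 : (fun p : E × (Fin m → ℝ) => f₀ p.1) ∘ x = (fun p => f₀' p.1) ∘ x :=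
    funext fun i => hf _ (hx.1 i).1
  rw [e1, e2, sub_self]

/-! ### Two families -/

variable {A' : Set E'} {A₁ : Set E₁} {Z : Set E''}

/-- The double difference. -/
def dd (a b c d : E → E') : TC k E' →ₗ[k] TC k E := pT a - pT b - (pT c - pT d)

omit [PseudoMetricSpace E] [PseudoMetricSpace E'] [PseudoMetricSpace E''] in
theorem slT_slT (F : E × (Fin m → ℝ) → E') (f₀ : E → E') (G : E' × (Fin m → ℝ) → E'')
    (g₀ : E' → E'') (C : TC k E'') :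
    slT m F f₀ (slT m G g₀ C) = KV m (KV m (dd (fun p => G (F p.1, p.2)) (fun p => g₀ (F p.1))
      (fun p => G (f₀ p.1.1, p.2)) (fun p => g₀ (f₀ p.1.1)) C)) := by
  rw [slT_apply, slT_apply, ← KV_pT, ← KV_pT, ← map_sub]
  rfl

/-- The point is `Out` uniformly. -/
theorem out_near {v w : Fin m → ℝ} {i : Fin m} (h : 17 / 100 ≤ |v i - 1 / 2|)
    (hd : dist v w < 1 / 100) : Out w := by
  refine ⟨i, ?_⟩
  have h1 := (dist_le_pi_dist v w i).trans_lt hd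
  rw [Real.dist_eq] at h1
  have h2 : |v i - 1 / 2| ≤ |w i - 1 / 2| + |v i - w i| := by
    have : v i - 1 / 2 = (w i - 1 / 2) + (v i - w i) := by ring
    rw [this]
    exact abs_add_le _ _
  linarith

theorem sg_out {n : ℕ} {x : Fin n → (E × (Fin m → ℝ)) × (Fin m → ℝ)}
    (hx : Sm (Sg A m) (1 / 100) x) : (∀ i, Out (x i).1.2) ∨ ∀ i, Out (x i).2 := by
  cases n with
  | zero => exact Or.inl fun i => i.elim0
  | succ n =>
    obtain ⟨-, i, hi⟩ := hx.1 0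
    have h1 : 17 / 100 ≤ |(x 0).1.2 i - 1 / 2| ∨ 17 / 100 ≤ |(x 0).2 i - 1 / 2| := by
      by_contra h
      push Not at h
      have h3 := abs_lt.1 h.1
      have h4 := abs_lt.1 h.2
      nlinarith [h3.1, h3.2, h4.1, h4.2]
    have h5 : ∀ j, dist (x 0).1.2 (x j).1.2 < 1 / 100 ∧ dist (x 0).2 (x j).2 < 1 / 100 := by
      intro j
      have := hx.2 0 j
      simp only [Prod.dist_eq, max_lt_iff] at this
      exact ⟨this.1.2, this.2⟩
    rcases h1 with h1 | h1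
    · exact Or.inl fun j => out_near h1 (h5 j).1
    · exact Or.inr fun j => out_near h1 (h5 j).2

end Metric

end Vale.Agent.P216.Ch2.H962
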