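import Vale.Agent.P216.Ch2.Ns
import Vale.Agent.P216.Ch2.H754B.Gen

/-!
# Signs in characteristic `2`: the algebra (P216)

`SD b a`: the two slants `L`, `R` of degree `-m`, the reversal `θ`, the operator `T` on the classes
`om j`. In characteristic `2`: `θ om_j = om_j` and `T om_{j+1} = 0`.
-/

namespace Vale.Agent.P216.Ch2.H962

open Vale.Agent.P216.Ch2.H901 Vale.Agent.P216.Ch2.H754B

variable {k : Type} [Field k]

/-- The data for the signs. -/
structure SD {m : ℕ} {G : ℕ → PM k} {B C B0 : ℝ} (b : Based m G B C B0) (a : ℝ) where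
  ha : 0 ≤ a
  θ : ∀ q, PMOp (G q)
  θθ : ∀ q t ht z, (θ q).r t ht ((θ q).r t ht z) = z
  L : ∀ q t, 0 < t → (G (q + m)).V (t + a) →ₗ[k] (G q).V t
  R : ∀ q t, 0 < t → (G (q + m)).V (t + a) →ₗ[k] (G q).V t
  RL : ∀ q t ht ht' z, (θ q).r t ht (L q t ht ((θ (q + m)).r (t + a) ht' z)) = R q t ht z
  lam : ℕ → k
  L_om : ∀ j t ht ht', L (m * j) t ht ((b.om (j + 1)).z (t + a) ht') =
    lam (j + 1) • (b.om j).z t ht
  T : ∀ q t, 0 < t → (G (q + m)).V (t + a + a) →ₗ[k] (G q).V t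
  T_om : ∀ j t ht h1 h2, T (m * j) t ht ((b.om (j + 1)).z (t + a + a) h2) =
    L (m * j) t ht ((b.om (j + 1)).z (t + a) h1) + R (m * j) t ht ((b.om (j + 1)).z (t + a) h1)

namespace SD

variable {m : ℕ} {G : ℕ → PM k} {B C B0 : ℝ} {b : Based m G B C B0} {a : ℝ} (S : SD b a)

include S

theorem exists_sign (hB : 0 ≤ B) (j : ℕ) :
    ∃ e : k, ∀ t ht, (S.θ (m * j)).r t ht ((b.om j).z t ht) = e • (b.om j).z t ht := by
  obtain ⟨e, he⟩ := (b.line j).fam hB ((S.θ (m * j)).fam (b.om j))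
  exact ⟨e, he⟩

/-- **Characteristic `2`.** -/
theorem main (hk : (2 : k) = 0) (hB : 0 ≤ B) :
    (∀ j t ht, (S.θ (m * j)).r t ht ((b.om j).z t ht) = (b.om j).z t ht) ∧
    ∀ j t ht h2, S.T (m * j) t ht ((b.om (j + 1)).z (t + a + a) h2) = 0 := by
  choose e he using S.exists_sign hB
  have ha := S.ha
  have hne : ∀ j, ∃ t, ∃ ht : 0 < t, (b.om j).z t ht ≠ 0 := fun j => by
    obtain ⟨T, hT⟩ := exists_om_ne b j
    exact ⟨max T 1, lt_max_of_lt_right one_pos, hT _ _ (le_max_left _ _)⟩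
  have canc : ∀ j (x y : k), (∀ t ht, x • (b.om j).z t ht = y • (b.om j).z t ht) → x = y := by
    intro j x y h
    obtain ⟨t, ht, hn⟩ := hne j
    have h1 := h t ht
    rw [← sub_eq_zero, ← sub_smul, smul_eq_zero, sub_eq_zero] at h1
    exact h1.resolve_right hn
  have hee : ∀ j, e j = 1 := by
    intro j
    have h1 : e j * e j = 1 := by
      refine canc j _ _ fun t ht => ?_
      have h1 := S.θθ (m * j) t ht ((b.om j).z t ht)
      rw [he, map_smul, he, smul_smul] at h1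
      rw [h1, one_smul]
    have h3 : (e j - 1) * (e j - 1) = 0 := by
      linear_combination h1 + hk * (1 - e j)
    exact sub_eq_zero.1 (mul_self_eq_zero.1 h3)
  have hθ : ∀ j t ht, (S.θ (m * j)).r t ht ((b.om j).z t ht) = (b.om j).z t ht := by
    intro j t ht
    rw [he, hee, one_smul]
  refine ⟨hθ, fun j t ht h2 => ?_⟩
  have ht' : 0 < t + a := by linarith
  rw [S.T_om j t ht ht' h2, ← S.RL (m * j) t ht ht']
  have h1 : (S.θ (m * j + m)).r (t + a) ht' ((b.om (j + 1)).z (t + a) ht') =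
    (b.om (j + 1)).z (t + a) ht' := hθ (j + 1) (t + a) ht'
  rw [h1, S.L_om, map_smul, hθ, ← two_smul k, hk, zero_smul]

end SD

end Vale.Agent.P216.Ch2.H962
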