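import Vale.Agent.P216.Ch2.Ns
import Vale.Agent.P216.Ch2.H962.Alg
import Vale.Agent.P216.Ch2.H962.SlH
import Vale.Agent.P216.Ch2.H456.SFam
import Vale.Agent.P216.Ch2.H456.PCon
import Vale.Agent.P216.Ch2.H901.ThFormula
import Vale.Agent.P216.Ch2.H754B.Rev

/-!
# The slants on the based loops of a sphere (P216, block B43)
-/

set_option linter.unusedVariables false
set_option linter.unusedSectionVars false

open Set BoundedContinuousFunction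

namespace Vale.Agent.P216.Ch2.H962

open Vale.Agent.P216.AS Vale.Agent.P216.Ch2.AS Vale.Agent.P216.Ch2.H901 Vale.Agent.P216.PS Vale.Agent.P216.MV337 Vale.Agent.P216.Ch2.MV337
open Vale.Agent.P216.Ch2.H456 Vale.Agent.P216.Ch2.H83 Vale.Agent.P216.Ch2.H754B

variable {k : Type} [Field k]

/-! ### The statements from the other files -/

/-- The comparison of the clutching operator with the slant. -/
def DLem (k : Type) [Field k] (m : ℕ) : Prop := ∀ (h2 : Ok k) (hm : 1 ≤ m)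
  (E E' : Type) [MetricSpace E] [MetricSpace E'] (Z : Set E) (Y : Set E')
  (D : ℝ → (Fin (m + 1) → ℝ) → (Fin (m + 1) → ℝ)) (b : Fin (m + 1) → ℝ) (_ : Coll m D b)
  (Φ : Cu E (m + 1) → E')
  (hΦ : IsMap (tr (Cu E (m + 1))) (tr E') (bdc (m + 1) Z) Y Φ)
  (F : E × (Fin m → ℝ) → E') (f₀ : E → E') (hF : IsFm Z Y F f₀)
  (_ : ∀ z ∈ Z, ∀ v ∈ Jc m, F (z, v) = Φ (enc (m + 1) z (D 1 (topv v))))
  (_ : ∀ z ∈ Z, f₀ z = Φ (enc (m + 1) z b)) (q : ℕ) (x : Ha (tr E') (on k) Y (q + m)),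
  susN h2 Z q (m + 1) (lesD k (cub (m + 1) Z) (bdc (m + 1) Z) (q + m)
    (absE k _ _ (pull (on k) hΦ (q + m) x))) = absE k Z q (Sl h2 hm hF q x)

section

variable {M : Type} [MetricSpace M] [CompactSpace M] {x₀ : M} {ℓ t : ℝ} {Tp Tm : M → ℝ → M}
  {m : ℕ} {D : ℝ → (Fin (m + 1) → ℝ) → (Fin (m + 1) → ℝ)} {b : Fin (m + 1) → ℝ}
  {C : Caps (m + 1) M x₀}

/-- The based loops. -/
abbrev PP0 (x₀ : M) : ℝ → Set (ℝ →ᵇ M) := fun t => P x₀ x₀ t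

/-- The cohomology of the based loops. -/
abbrev HP (k : Type) [Field k] (x₀ : M) (q : ℕ) (t : ℝ) : Type :=
  Ha (tr (ℝ →ᵇ M)) (on k) (P x₀ x₀ t) q

theorem mono_P (x₀ : M) : Mono (PP0 x₀) := fun _ _ _ h => P_mono h

/-- `(g, v) ↦ σ_v⁻¹ * g * σ_v` -/
noncomputable def FmT (C : Caps (m + 1) M x₀) (Tp Tm : M → ℝ → M) (ℓ : ℝ)
    (D : ℝ → (Fin (m + 1) → ℝ) → (Fin (m + 1) → ℝ)) (t : ℝ) (p : (ℝ →ᵇ M) × (Fin m → ℝ)) : ℝ →ᵇ M :=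
  FmR C Tp Tm ℓ D (t + 2 * ℓ) (FmL C Tp Tm ℓ D p, p.2)

/-- The values outside the small cube. -/
noncomputable def fT (C : Caps (m + 1) M x₀) (Tp Tm : M → ℝ → M) (ℓ : ℝ) (b : Fin (m + 1) → ℝ)
    (t : ℝ) (g : ℝ →ᵇ M) : ℝ →ᵇ M :=
  sR Tp Tm ℓ (t + 2 * ℓ) (C.ψ b) (sL Tp Tm ℓ (C.ψ b) g)

theorem isFm_T (hm1 : 1 ≤ m) (hp : Tr C.Dp x₀ ℓ Tp) (hm : Tr C.Dm x₀ ℓ Tm) (h : Coll m D b)
    (ht : 0 ≤ t) : IsFm (P x₀ x₀ t) (P x₀ x₀ (t + 2 * ℓ + 2 * ℓ)) (FmT C Tp Tm ℓ D t)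
      (fT C Tp Tm ℓ b t) := by
  have hl := hp.nonneg
  have hL := isFm_L hp hm h ht
  have hR := isFm_R (t := t + 2 * ℓ) hp hm h (by linarith)
  refine ⟨hR.um.comp (hL.um.pair (UM.snd' (A := Bg m) fun p hq => hq.2)), fun g hg v hv ho => ?_⟩
  change FmR C Tp Tm ℓ D (t + 2 * ℓ) (FmL C Tp Tm ℓ D (g, v), v) = _
  rw [hR.out _ (hL.um.maps ⟨hg, hv⟩) v hv ho, hL.out g hg v hv ho]
  rfl

variable (h2 : Ok k) (hm1 : 1 ≤ m) (hp : Tr C.Dp x₀ ℓ Tp) (hm : Tr C.Dm x₀ ℓ Tm)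
  (hC : Coll m D b)

/-- `L` -/
noncomputable def opL (q : ℕ) (t : ℝ) (ht : 0 < t) :
    HP k x₀ (q + m) (t + 2 * ℓ) →ₗ[k] HP k x₀ q t :=
  Sl h2 hm1 (isFm_L hp hm hC ht.le) q

/-- `R` -/
noncomputable def opR (q : ℕ) (t : ℝ) (ht : 0 < t) :
    HP k x₀ (q + m) (t + 2 * ℓ) →ₗ[k] HP k x₀ q t :=
  Sl h2 hm1 (isFm_R hp hm hC ht.le) q

/-- `T` -/
noncomputable def opT (q : ℕ) (t : ℝ) (ht : 0 < t) :
    HP k x₀ (q + m) (t + 2 * ℓ + 2 * ℓ) →ₗ[k] HP k x₀ q t :=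
  Sl h2 hm1 (isFm_T hm1 hp hm hC ht.le) q

/-- The reversal. -/
noncomputable def opθ (k : Type) [Field k] (x₀ : M) (q : ℕ) : PMOp (PMa k (PP0 x₀) (mono_P x₀) q) :=
  (opP x₀).opa k (mono_P x₀) q

theorem opθ_apply (x₀ : M) (q : ℕ) (t : ℝ) (ht : 0 < t) (z : HP k x₀ q t) :
    (opθ k x₀ q).r t ht z = pull (on k) ((opP x₀).map t ht) q z := rfl

theorem rvv (t : ℝ) (w : ℝ →ᵇ M) : H754B.rv t (H754B.rv t w) = w := by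
  ext u
  rw [rv_apply, rv_apply, sub_sub_cancel]

theorem opθ_opθ (q : ℕ) (t : ℝ) (ht : 0 < t) (z : HP k x₀ q t) :
    (opθ k x₀ q).r t ht ((opθ k x₀ q).r t ht z) = z := by
  rw [opθ_apply, opθ_apply, ← pull_comp]
  rw [pull_eq_res (k := k) (χ := on k) (n := q) (subset_refl (P x₀ x₀ t))
    (((opP x₀).map t ht).comp ((opP x₀).map t ht)) fun w _ => rvv t w]
  exact res_refl _ _

/-- `θ L θ = R` -/
theorem op_RL (q : ℕ) (t : ℝ) (ht : 0 < t) (ht' : 0 < t + 2 * ℓ)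
    (z : HP k x₀ (q + m) (t + 2 * ℓ)) :
    (opθ k x₀ q).r t ht (opL h2 hm1 hp hm hC q t ht ((opθ k x₀ (q + m)).r (t + 2 * ℓ) ht' z)) =
      opR h2 hm1 hp hm hC q t ht z := by
  have hL := isFm_L (t := t) hp hm hC ht.le
  have hR := isFm_R (t := t) hp hm hC ht.le
  have hθ := (opP x₀).map t ht
  have hθ' := (opP x₀).map (t + 2 * ℓ) ht'
  have h3 : IsFm (P x₀ x₀ t) (P x₀ x₀ (t + 2 * ℓ)) (H754B.rv (t + 2 * ℓ) ∘ FmL C Tp Tm ℓ D)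
      (H754B.rv (t + 2 * ℓ) ∘ sL Tp Tm ℓ (C.ψ b)) := hL.comp ⟨hθ'.mapsX, hθ'.uc⟩
  have e1 : opL h2 hm1 hp hm hC q t ht ((opθ k x₀ (q + m)).r (t + 2 * ℓ) ht' z) =
      Sl h2 hm1 h3 q z :=
    Sl_pull h2 hm1 hL hθ' h3 (fun _ _ _ _ => rfl) (fun _ _ => rfl) q z
  rw [e1]
  have e2 := pull_Sl h2 hm1 h3 hθ hR (fun g hg v _ =>
    (rev_FmL hp hm hC ht.le (f := H754B.rv t) (f' := H754B.rv (t + 2 * ℓ)) (fun _ _ => rfl) (fun _ _ => rfl)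
      hg v).symm) (fun g hg => (rev_sL hp hm (xb_mem C hC) ht.le (f := H754B.rv t)
      (f' := H754B.rv (t + 2 * ℓ)) (fun _ _ => rfl) (fun _ _ => rfl) hg).symm) q z
  exact e2

include hm1 hp hm hC in
/-- the translation by `σ_b` on the left -/
theorem isMap_sL (ht : 0 ≤ t) : IsMap (tr (ℝ →ᵇ M)) (tr (ℝ →ᵇ M)) (P x₀ x₀ t)
    (P x₀ x₀ (t + 2 * ℓ)) (sL Tp Tm ℓ (C.ψ b)) :=
  have h := (isFm_L (t := t) hp hm hC ht).um0 hm1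
  ⟨h.maps, fun i => i.elim, h.uc⟩

include hm1 hp hm hC in
/-- the translation by `σ_b` on the right -/
theorem isMap_sR (ht : 0 ≤ t) : IsMap (tr (ℝ →ᵇ M)) (tr (ℝ →ᵇ M)) (P x₀ x₀ t)
    (P x₀ x₀ (t + 2 * ℓ)) (sR Tp Tm ℓ t (C.ψ b)) :=
  have h := (isFm_R (t := t) hp hm hC ht).um0 hm1
  ⟨h.maps, fun i => i.elim, h.uc⟩

/-- `T = L r_b^* + l_b^* R` -/
theorem op_T (q : ℕ) (t : ℝ) (ht : 0 < t) (ht' : 0 < t + 2 * ℓ)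
    (z : HP k x₀ (q + m) (t + 2 * ℓ + 2 * ℓ)) :
    opT h2 hm1 hp hm hC q t ht z =
      opL h2 hm1 hp hm hC q t ht (pull (on k) (isMap_sR hm1 hp hm hC ht'.le) (q + m) z) +
      pull (on k) (isMap_sL hm1 hp hm hC ht.le) q
        (opR h2 hm1 hp hm hC q (t + 2 * ℓ) ht' z) := by
  have hl := hp.nonneg
  have hL := isFm_L (t := t) hp hm hC ht.le
  have hR := isFm_R (t := t + 2 * ℓ) hp hm hC ht'.le
  have um0 := hR.um0 hm1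
  have h1 : IsFm (P x₀ x₀ t) (P x₀ x₀ (t + 2 * ℓ + 2 * ℓ))
      (sR Tp Tm ℓ (t + 2 * ℓ) (C.ψ b) ∘ FmL C Tp Tm ℓ D) (fT C Tp Tm ℓ b t) :=
    hL.comp um0
  have h3 : IsFm (P x₀ x₀ t) (P x₀ x₀ (t + 2 * ℓ + 2 * ℓ))
      (FmR C Tp Tm ℓ D (t + 2 * ℓ) ∘ Prod.map (sL Tp Tm ℓ (C.ψ b)) id) (fT C Tp Tm ℓ b t) :=
    hR.pre (hL.um0 hm1)
  have e1 : Sl h2 hm1 h1 q z =
      opL h2 hm1 hp hm hC q t ht (pull (on k) (isMap_sR hm1 hp hm hC ht'.le) (q + m) z) :=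
    (Sl_pull h2 hm1 hL (isMap_sR hm1 hp hm hC ht'.le) h1 (fun _ _ _ _ => rfl) (fun _ _ => rfl)
      q z).symm
  have e3 : Sl h2 hm1 h3 q z = pull (on k) (isMap_sL hm1 hp hm hC ht.le) q
      (opR h2 hm1 hp hm hC q (t + 2 * ℓ) ht' z) :=
    (pull_Sl h2 hm1 hR (isMap_sL hm1 hp hm hC ht.le) h3 (fun _ _ _ _ => rfl) (fun _ _ => rfl)
      q z).symm
  rw [← e1, ← e3]
  refine Sl_diag h2 hm1 (F := fun p => FmR C Tp Tm ℓ D (t + 2 * ℓ) (FmL C Tp Tm ℓ D p.1, p.2))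
    (isFm_T hm1 hp hm hC ht.le) (fun _ _ _ _ => rfl) ?_ h1 h3 ?_ ?_ q z
  · exact hR.um.comp ((hL.um.comp (UM.fst' (A := P x₀ x₀ t ×ˢ Bg m) fun p hq => hq.1)).pair
      (UM.snd' (A := Bg m) fun p hq => hq.2))
  · intro g hg v hv w hw ho
    change FmR C Tp Tm ℓ D (t + 2 * ℓ) (FmL C Tp Tm ℓ D (g, v), w) =
      FmR C Tp Tm ℓ D (t + 2 * ℓ) (sL Tp Tm ℓ (C.ψ b) g, w)
    rw [hL.out g hg v hv ho]
  · intro g hg v hv w hw ho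
    exact hR.out _ (hL.um.maps ⟨hg, hv⟩) w hw ho

end

end Vale.Agent.P216.Ch2.H962
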