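import Vale.Agent.P216.Ch2.Ns
import Vale.Agent.P216.Ch2.H962.Inst

/-!
# The signs of the reversal on the classes of the based loops (P216, block B43)

`sd`: the instance of `SD` on the based loops of a sphere.
-/

set_option linter.unusedVariables false
set_option linter.unusedSectionVars false

open Set BoundedContinuousFunction

namespace Vale.Agent.P216.Ch2.H962

open Vale.Agent.P216.AS Vale.Agent.P216.Ch2.AS Vale.Agent.P216.Ch2.H901 Vale.Agent.P216.PS Vale.Agent.P216.MV337 Vale.Agent.P216.Ch2.MV337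
open Vale.Agent.P216.Ch2.H456 Vale.Agent.P216.Ch2.H83 Vale.Agent.P216.Ch2.H754B

variable {k : Type} [Field k]

section One

variable {E E' : Type} [PseudoMetricSpace E] [PseudoMetricSpace E']

/-- The class of the constant `1`. -/
noncomputable def one (k : Type) [Field k] (X : Set E) : Ha (tr E) (on k) X 0 :=
  H.mk (fun _ => (1 : k)) (mem_Zc'.2 ⟨1, one_pos, fun x _ => by simp [P265.AS.d]⟩)

theorem one_ne {X : Set E} (h : X.Nonempty) : one k X ≠ 0 := by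
  intro h0
  unfold one at h0
  rw [H.mk_eq_zero, mem_Bc_zero] at h0
  obtain ⟨-, ε, hε, h1⟩ := h0
  obtain ⟨p, hp⟩ := h
  exact one_ne_zero (h1 (fun _ => p) ⟨fun _ => hp, fun _ _ => by simpa using hε⟩)

theorem pull_one {X : Set E} {Y : Set E'} {f : E → E'} (h : IsMap (tr E) (tr E') X Y f) :
    pull (on k) h 0 (one k Y) = one k X := rfl

end One

variable {M : Type} [MetricSpace M] [CompactSpace M] {x₀ : M} {ℓ : ℝ} {Tp Tm : M → ℝ → M}
  {m : ℕ} {D : ℝ → (Fin (m + 1) → ℝ) → (Fin (m + 1) → ℝ)} {bb : Fin (m + 1) → ℝ}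
  {C : Caps (m + 1) M x₀}

/-- The constant loop is in `P x₀ x₀ t`. -/
theorem cst_mem' (x₀ : M) (t : ℝ) : BoundedContinuousFunction.const ℝ x₀ ∈ P x₀ x₀ t :=
  ⟨fun u v => by simp, fun _ _ => rfl, fun _ _ => rfl⟩

/-- The family of the constants. -/
noncomputable def oneFam (k : Type) [Field k] (x₀ : M) : (PMa k (PP0 x₀) (mono_P x₀) 0).Fam where
  z t _ := one k (P x₀ x₀ t)
  comp _ _ _ _ := rfl

/-- The class `om (j + 1)`, of degree `m * j + m`. -/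
noncomputable def omS {B C' B0 : ℝ} (b : Based m (fun q => PMa k (PP0 x₀) (mono_P x₀) q) B C' B0)
    (j : ℕ) (t : ℝ) (ht : 0 < t) : HP k x₀ (m * j + m) t := (b.om (j + 1)).z t ht

/-- The class `om j`. -/
noncomputable def omO {B C' B0 : ℝ} (b : Based m (fun q => PMa k (PP0 x₀) (mono_P x₀) q) B C' B0)
    (j : ℕ) (t : ℝ) (ht : 0 < t) : HP k x₀ (m * j) t := (b.om j).z t ht

section

variable (h2 : Ok k) (hm1 : 1 ≤ m) (hp : Tr C.Dp x₀ ℓ Tp) (hm : Tr C.Dm x₀ ℓ Tm)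
  (hC : Coll m D bb) {B C' B0 : ℝ} (hB : 0 ≤ B)
  (b : Based m (fun q => PMa k (PP0 x₀) (mono_P x₀) q) B C' B0)

include hB in
/-- `om 0` is a multiple of the constant. -/
theorem om0_eq : ∃ c : k, c ≠ 0 ∧ ∀ t (ht : 0 < t), (b.om 0).z t ht = c • one k (P x₀ x₀ t) := by
  obtain ⟨c, hc⟩ := (b.line 0).fam hB (oneFam k x₀)
  have hc' : ∀ t (ht : 0 < t), one k (P x₀ x₀ t) = c • (b.om 0).z t ht := hc
  have h0 : c ≠ 0 := by
    rintro rfl
    have := hc' 1 one_pos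
    rw [zero_smul] at this
    exact one_ne ⟨_, cst_mem' x₀ 1⟩ this
  refine ⟨c⁻¹, inv_ne_zero h0, fun t ht => ?_⟩
  rw [hc' t ht]
  exact (inv_smul_smul₀ h0 ((b.om 0).z t ht)).symm

include hB in
theorem opθ_om0 (t : ℝ) (ht : 0 < t) :
    (opθ k x₀ (m * 0)).r t ht ((b.om 0).z t ht) = (b.om 0).z t ht := by
  obtain ⟨c, -, hc⟩ := om0_eq hB b
  rw [hc t ht]
  exact map_smul (pull (on k) ((opP x₀).map t ht) 0) c (one k (P x₀ x₀ t))

variable (lam : ℕ → k)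
  (hlam : ∀ j t (ht : 0 < t) (ht' : 0 < t + 2 * ℓ), opL h2 hm1 hp hm hC (m * j) t ht
    (omS b j (t + 2 * ℓ) ht') = lam (j + 1) • omO b j t ht)

include hB hlam in
/-- `R` on the classes. -/
theorem opR_om (j : ℕ) : ∃ r : k, ∀ t (ht : 0 < t) (ht' : 0 < t + 2 * ℓ),
    opR h2 hm1 hp hm hC (m * j) t ht (omS b j (t + 2 * ℓ) ht') = r • omO b j t ht := by
  obtain ⟨e, he⟩ := (b.line j).fam hB ((opθ k x₀ (m * j)).fam (b.om j))
  obtain ⟨e', he'⟩ := (b.line (j + 1)).fam hB ((opθ k x₀ (m * (j + 1))).fam (b.om (j + 1)))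
  refine ⟨e' * lam (j + 1) * e, fun t ht ht' => ?_⟩
  rw [← op_RL h2 hm1 hp hm hC (m * j) t ht ht']
  have h1 : (opθ k x₀ (m * j + m)).r (t + 2 * ℓ) ht' (omS b j (t + 2 * ℓ) ht') =
    e' • omS b j (t + 2 * ℓ) ht' := he' (t + 2 * ℓ) ht'
  have h3 : opL h2 hm1 hp hm hC (m * j) t ht (e' • omS b j (t + 2 * ℓ) ht') =
    e' • opL h2 hm1 hp hm hC (m * j) t ht (omS b j (t + 2 * ℓ) ht') := map_smul _ _ _
  have h4 : (opθ k x₀ (m * j)).r t ht (omO b j t ht) = e • omO b j t ht := he t ht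
  have h5 : ∀ a : k, (opθ k x₀ (m * j)).r t ht (a • omO b j t ht) =
    a • (opθ k x₀ (m * j)).r t ht (omO b j t ht) := fun a => map_smul _ _ _
  rw [h1, h3, hlam, smul_smul, h5, h4]
  exact smul_smul _ _ _

variable {K : ℝ} (hK : 0 ≤ K)
  (heL : ∀ t (ht : 0 < t) q (z : HP k x₀ q (t + 2 * ℓ + K)),
    pull (on k) (isMap_sL hm1 hp hm hC ht.le) q
      (res (P_mono (by linarith : t + 2 * ℓ ≤ t + 2 * ℓ + K)) q z) =
    res (P_mono (by linarith [hp.nonneg] : t ≤ t + 2 * ℓ + K)) q z)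
  (heR : ∀ t (ht : 0 < t) q (z : HP k x₀ q (t + 2 * ℓ + K)),
    pull (on k) (isMap_sR hm1 hp hm hC ht.le) q
      (res (P_mono (by linarith : t + 2 * ℓ ≤ t + 2 * ℓ + K)) q z) =
    res (P_mono (by linarith [hp.nonneg] : t ≤ t + 2 * ℓ + K)) q z)

include hK heL in
theorem pull_sL_om (j : ℕ) (t : ℝ) (ht : 0 < t) (ht' : 0 < t + 2 * ℓ) :
    pull (on k) (isMap_sL hm1 hp hm hC ht.le) (m * j) (omO b j (t + 2 * ℓ) ht') =
      omO b j t ht := by
  change pull (on k) (isMap_sL hm1 hp hm hC ht.le) (m * j) ((b.om j).z (t + 2 * ℓ) ht') =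
      (b.om j).z t ht
  have hl := hp.nonneg
  have h1 := (b.om j).comp (t + 2 * ℓ) (t + 2 * ℓ + K) ht' (by linarith)
  have h3 := (b.om j).comp t (t + 2 * ℓ + K) ht (by linarith)
  rw [← h1, ← h3]
  exact heL t ht (m * j) _

include hK heR in
theorem pull_sR_om (j : ℕ) (t : ℝ) (ht : 0 < t) (ht' : 0 < t + 2 * ℓ) :
    pull (on k) (isMap_sR hm1 hp hm hC ht.le) (m * j + m) (omS b j (t + 2 * ℓ) ht') =
      omS b j t ht := by
  have hl := hp.nonneg
  have h1 := (b.om (j + 1)).comp (t + 2 * ℓ) (t + 2 * ℓ + K) ht' (by linarith)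
  have h3 := (b.om (j + 1)).comp t (t + 2 * ℓ + K) ht (by linarith)
  have h4 := heR t ht (m * j + m) ((b.om (j + 1)).z (t + 2 * ℓ + K) (by linarith))
  exact (congrArg (pull (on k) (isMap_sR hm1 hp hm hC ht.le) (m * j + m)) h1.symm).trans
    (h4.trans h3)

include hB hlam hK heL heR in
/-- `T = L + R` on the classes. -/
theorem opT_om (j : ℕ) (t : ℝ) (ht : 0 < t) (h1 : 0 < t + 2 * ℓ) (h3 : 0 < t + 2 * ℓ + 2 * ℓ) :
    opT h2 hm1 hp hm hC (m * j) t ht (omS b j (t + 2 * ℓ + 2 * ℓ) h3) =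
      opL h2 hm1 hp hm hC (m * j) t ht (omS b j (t + 2 * ℓ) h1) +
      opR h2 hm1 hp hm hC (m * j) t ht (omS b j (t + 2 * ℓ) h1) := by
  rw [op_T h2 hm1 hp hm hC (m * j) t ht h1]
  obtain ⟨r, hr⟩ := opR_om h2 hm1 hp hm hC hB b lam hlam j
  have e2 : pull (on k) (isMap_sL hm1 hp hm hC ht.le) (m * j) (r • omO b j (t + 2 * ℓ) h1) =
      r • pull (on k) (isMap_sL hm1 hp hm hC ht.le) (m * j) (omO b j (t + 2 * ℓ) h1) :=
    map_smul _ _ _
  rw [pull_sR_om hm1 hp hm hC b hK heR j (t + 2 * ℓ) h1 h3, hr (t + 2 * ℓ) h1 h3, e2,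
    pull_sL_om hm1 hp hm hC b hK heL j t ht h1, hr t ht h1]

/-- **The instance.** -/
noncomputable def sd : SD b (2 * ℓ) where
  ha := by linarith [hp.nonneg]
  θ q := opθ k x₀ q
  θθ q t ht z := opθ_opθ q t ht z
  L q t ht := opL h2 hm1 hp hm hC q t ht
  R q t ht := opR h2 hm1 hp hm hC q t ht
  RL q t ht ht' z := op_RL h2 hm1 hp hm hC q t ht ht' z
  lam := lam
  L_om j t ht ht' := hlam j t ht ht'
  T q t ht := opT h2 hm1 hp hm hC q t ht
  T_om j t ht h1 h3 := opT_om h2 hm1 hp hm hC hB b lam hlam hK heL heR j t ht h1 h3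

include hB hlam hK heL heR in
/-- **The reversal on the based loops, in characteristic `2`.** -/
theorem signs (hk : (2 : k) = 0) :
    (∀ j t ht, (opθ k x₀ (m * j)).r t ht ((b.om j).z t ht) = (b.om j).z t ht) ∧
    ∀ j t (ht : 0 < t) (h3 : 0 < t + 2 * ℓ + 2 * ℓ),
      opT h2 hm1 hp hm hC (m * j) t ht ((b.om (j + 1)).z (t + 2 * ℓ + 2 * ℓ) h3) = 0 :=
  (sd h2 hm1 hp hm hC hB b lam hlam hK heL heR).main hk hB

end

end Vale.Agent.P216.Ch2.H962
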